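import Mathlib

/-!
# Row 22 (S0029): `(d-2)`-free values of polynomials.  Definitions.

Overview of the whole proof (`N = d - 1 = k + 1`).

* `Sieve`, `Hensel0`: classical sieve; reduces S0029 to `big_count` (few `n ≤ X` have `p ^ k ∣ g n`
  with `p ≥ X / T`, `g` monic).
* `Arith`, `MulInd`, `Big`: each such `n` gives a point `(n, a, b)` with
  `(∑ b_i θ^i) (∑ a_i θ^i)^k = γ (n - θ)` and `|a_i|^k |b_j| ≤ H`; `big_count` follows from `core`.
* `core` (file `Core`): a determinant method.  The integers `∏ a_{α l} ∏ b_{β l}` (words of level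
  `j`: `k j` letters `a`, `j` letters `b`) have size `≤ H^j` and are rational functions of
  `s = a / a_c` and `n`.  Points are split in residue classes of `s` modulo many primes `q_i ≈ H^η`.
  An ultrapower `FF` of `ℂ` makes all degree bounds uniform.
-/

set_option autoImplicit false

open Polynomial

namespace Crest.Agent.R22

/-- Variables: `none` is `n`, `some i` is `s_i = a_i / a_c`. -/
abbrev Var (d : ℕ) := Option (Fin d)

/-- A point: an integer `n` and the coordinate vectors of `π = ∑ a_i θ^i`, `μ = ∑ b_i θ^i`. -/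
structure Pt (d : ℕ) where
  n : ℤ
  a : Fin d → ℤ
  b : Fin d → ℤ

noncomputable instance (d : ℕ) : DecidableEq (Pt d) := Classical.decEq _

/-- The polynomial with coefficient vector `a`. -/
noncomputable def vpoly {R : Type*} [CommRing R] {d : ℕ} (a : Fin d → R) : R[X] :=
  ∑ i, C (a i) * X ^ (i : ℕ)

/-- `∑ a_i t^i`. -/
def cj {R : Type*} [CommRing R] {d : ℕ} (a : Fin d → R) (t : R) : R := ∑ i, a i * t ^ (i : ℕ)

/-- The conjugate `π_σ = ∑ a_i θ_σ^i` of the point `z`. -/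
noncomputable def Pt.pi {d : ℕ} (z : Pt d) (t : ℂ) : ℂ := cj (fun i => (z.a i : ℂ)) t

/-- Affine coordinates of a point in the chart `c`, with values in a ring `O`. -/
noncomputable def co {d : ℕ} (O : Type*) [CommRing O] (c : Fin d) (z : Pt d) : Var d → O
  | none => (z.n : O)
  | some i => (z.a i : O) * Ring.inverse (z.a c : O)

/-- `g` is monic of degree `d` with the distinct complex roots `θ σ`, none an integer. -/
structure Roots {d : ℕ} (g : ℤ[X]) (θ : Fin d → ℂ) : Prop where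
  monic : g.Monic
  deg : g.natDegree = d
  prod : g.map (Int.castRingHom ℂ) = ∏ σ, (X - C (θ σ))
  inj : Function.Injective θ
  nint : ∀ (n : ℤ) (σ : Fin d), (n : ℂ) ≠ θ σ

/-- The basic relation `μ π^k = γ (n - θ)` in `ℤ[X]/(g)`. -/
def Rel {d : ℕ} (g : ℤ[X]) (k : ℕ) (γ : ℤ) (z : Pt d) : Prop :=
  g ∣ vpoly z.b * vpoly z.a ^ k - C γ * (C z.n - X)

/-- Chart and height conditions. -/
structure Ht {d : ℕ} (c : Fin d) (H : ℕ) (z : Pt d) : Prop where
  chart : z.a c ≠ 0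
  hn : |z.n| ≤ H
  ha : ∀ i, |z.a i| ≤ H

/-- Points counted by `core`. -/
structure Good {d : ℕ} (g : ℤ[X]) (k : ℕ) (γ : ℤ) (c : Fin d) (H : ℕ) (z : Pt d) : Prop where
  rel : Rel g k γ z
  ht : Ht c H z
  hab : ∀ i j, |z.a i| ^ k * |z.b j| ≤ H

/-- A multiplicative relation between the conjugates of two points. -/
def MRel {d : ℕ} (θ : Fin d → ℂ) (e e' : Fin d → ℕ) (z z' : Pt d) : Prop :=
  (∏ σ, z.pi (θ σ) ^ e σ) * ∏ σ, z'.pi (θ σ) ^ e' σ =
    (∏ σ, z.pi (θ σ) ^ e' σ) * ∏ σ, z'.pi (θ σ) ^ e σ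

open Classical in
/-- Multiplicative independence: at most `B` points of `𝒳` are related to a given one. -/
def MI {d : ℕ} (θ : Fin d → ℂ) (B : ℕ) (𝒳 : Finset (Pt d)) : Prop :=
  ∀ e e' : Fin d → ℕ, e ≠ e' → ∑ σ, e σ = ∑ σ, e' σ → ∀ z ∈ 𝒳,
    (𝒳.filter fun z' => MRel θ e e' z z').card ≤ B

/-- The variables `s_j`, `j ∈ J`. -/
def sv {d : ℕ} (J : Finset (Fin d)) : Finset (Var d) := J.map Function.Embedding.some

/-- `P` vanishes at all points of `Y`. -/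
def Van {d : ℕ} (c : Fin d) (Y : Finset (Pt d)) {R : Type*} [CommRing R] [Algebra R ℂ]
    (P : MvPolynomial (Var d) R) : Prop :=
  ∀ z ∈ Y, MvPolynomial.aeval (co ℂ c z) P = 0

/-- The coordinates in `S` satisfy a nontrivial relation of degree `≤ e` on `Y`. -/
def DepC {d : ℕ} (c : Fin d) (Y : Finset (Pt d)) (S : Finset (Var d)) (e : ℕ) : Prop :=
  ∃ P : MvPolynomial (Var d) ℂ, P ≠ 0 ∧ P.vars ⊆ S ∧ P.totalDegree ≤ e ∧ Van c Y P

/-- Height bound for certificates. -/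
def cb (d e H : ℕ) : ℕ := ((e + 1) ^ (d + 1) * H ^ (2 * e)) ^ ((e + 1) ^ (d + 1))

/-- The integer `a_c ^ e * P(co z)`. -/
noncomputable def hv {d : ℕ} (c : Fin d) (e : ℕ) (P : MvPolynomial (Var d) ℤ) (z : Pt d) : ℤ :=
  ∑ m ∈ P.support, P.coeff m *
    (z.n ^ m none * (∏ i, z.a i ^ m (some i)) * z.a c ^ (e - ∑ i, m (some i)))

/-- Residue class of `s = a / a_c` modulo `q`. -/
noncomputable def cls {d : ℕ} (c : Fin d) (q : ℕ) (z : Pt d) : Option (Fin d → ZMod q) :=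
  if (q : ℤ) ∣ z.a c then none else some fun i => co (ZMod q) c z (some i)

/-- Properties of the final pieces of the partitions. -/
structure Nice {d : ℕ} (c : Fin d) (H E : ℕ) (Qs : Finset ℕ) (Y : Finset (Pt d)) : Prop where
  irr : ∀ f g : MvPolynomial (Var d) ℂ, f.totalDegree ≤ E → g.totalDegree ≤ E →
    Van c Y (f * g) → Van c Y f ∨ Van c Y g
  cert : ∀ (S : Finset (Var d)) (ψ : Var d) (e : ℕ), e ≤ E → DepC c Y (insert ψ S) e →
    ¬ DepC c Y S e → ∃ P : MvPolynomial (Var d) ℤ, P.vars ⊆ insert ψ S ∧ P.totalDegree ≤ e ∧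
      (∀ m, |P.coeff m| ≤ cb d e H) ∧ Van c Y P ∧
      ∀ z ∈ Y, MvPolynomial.aeval (co ℂ c z) (MvPolynomial.pderiv ψ P) ≠ 0
  ncl : ∀ q ∈ Qs, (Y.image fun z => z.n % (q : ℤ)).card ≤ 1 ∨
    E < (Y.image fun z => z.n % (q : ℤ)).card

/-- `π` describes a partition of `A`: `π x` is the piece containing `x`. -/
def IsPart {Ω : Type*} (A : Finset Ω) (π : Ω → Finset Ω) : Prop :=
  ∀ x ∈ A, x ∈ π x ∧ π x ⊆ A ∧ ∀ y ∈ π x, π y = π x

/-- A word of level `j`: `k j` letters of the first kind and `j` letters of the second kind. -/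
structure Word (d k : ℕ) where
  j : ℕ
  α : Fin (k * j) → Fin d
  β : Fin j → Fin d

/-- Value of a word. -/
def Word.val {d k : ℕ} {A : Type*} [CommMonoid A] (w : Word d k) (x μ : Fin d → A) : A :=
  (∏ l, x (w.α l)) * ∏ l, μ (w.β l)

/-- The span of all words of level `≤ j`. -/
def Lev (K : Type*) {A : Type*} [Field K] [CommRing A] [Algebra K A] {d : ℕ} (k : ℕ)
    (x μ : Fin d → A) (j : ℕ) : Submodule K A :=
  Submodule.span K {f | ∃ w : Word d k, w.j ≤ j ∧ f = w.val x μ}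

/-- The variables in `S` are algebraically dependent modulo `I`. -/
def DepI {V F : Type*} [CommRing F] (I : Ideal (MvPolynomial V F)) (S : Finset V) : Prop :=
  ∃ P ∈ I, P ≠ 0 ∧ P.vars ⊆ S

open Classical in
/-- Dimension of the projection to the `s`-space. -/
noncomputable def dimS {d : ℕ} {F : Type*} [CommRing F] (I : Ideal (MvPolynomial (Var d) F)) : ℕ :=
  (Finset.univ.filter fun J : Finset (Fin d) => ¬ DepI I (sv J)).sup Finset.card

/-- Number of Taylor monomials of order `≤ τ` (times `D + 1` in the vertical case `v`). -/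
def cnt (i : ℕ) (v : Bool) (D τ : ℕ) : ℕ := (τ + i).choose i * (if v then D + 1 else 1)

/-- Growth exponent of the rank. -/
def pw (i : ℕ) (v : Bool) : ℕ := i + (if v then 1 else 0)

/-- The constants `Ω_i` of the vertical case. -/
def Om (i : ℕ) : ℕ := if i = 1 then 4 else if i = 2 then 9 else (2 * i).choose i

/-- Leading constants of the lower bounds for the rank. -/
noncomputable def gam (k i : ℕ) (v : Bool) : ℝ :=
  if v then (Om i : ℝ) * (k : ℝ) ^ i / ((i + 1).factorial : ℝ)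
  else ((k : ℝ) + 1) ^ i / (i.factorial : ℝ) +
    (if i = k + 1 then ((k : ℝ) - 1) ^ k / (k.factorial : ℝ) else 0)

/-- The determinant criterion. -/
def Crit (i : ℕ) (v : Bool) (γ₀ lam : ℝ) : Prop :=
  ∃ t : ℝ, 0 < t ∧ γ₀ * (pw i v : ℝ) / ((pw i v : ℝ) + 1) <
    lam * (γ₀ * t - t ^ (i + 1) / ((i + 1).factorial : ℝ))

/-- `rk j` is asymptotically at least `γ₀ j^p`. -/
def Grow (rk : ℕ → ℕ) (p : ℕ) (γ₀ : ℝ) : Prop :=
  ∀ γ₁ : ℝ, γ₁ < γ₀ → ∀ᶠ j : ℕ in Filter.atTop, γ₁ * (j : ℝ) ^ p ≤ (rk j : ℝ)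

/-- `x_σ(y) = ∑ s_i θ_σ^i` as a function on a set of points with coordinates in a field. -/
def xf {F : Type*} [Field F] {d : ℕ} (θ : Fin d → F) (𝒴 : Set (Var d → F)) (σ : Fin d) :
    𝒴 → F := fun y => cj (fun i => y.1 (some i)) (θ σ)

/-- `μ_σ(y) = (n - θ_σ) / x_σ^k`. -/
def mf {F : Type*} [Field F] {d : ℕ} (k : ℕ) (θ : Fin d → F) (𝒴 : Set (Var d → F)) (σ : Fin d) :
    𝒴 → F := fun y => (y.1 none - θ σ) / xf θ 𝒴 σ y ^ k

/-- Hypotheses of the rank lower bound on a set of points with coordinates in `F`. -/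
structure GeoSet {F : Type*} [Field F] {d : ℕ} (θ : Fin d → F) (c : Fin d)
    (𝒴 : Set (Var d → F)) : Prop where
  inj : Function.Injective θ
  hc : ∀ y ∈ 𝒴, y (some c) = 1
  hx : ∀ (σ : Fin d) (y : 𝒴), xf θ 𝒴 σ y ≠ 0
  hn : ∀ y ∈ 𝒴, ∀ σ, y none ≠ θ σ
  mi : ∀ e e' : Fin d → ℕ, e ≠ e' → ∑ σ, e σ = ∑ σ, e' σ → ∀ y : 𝒴,
    {y' : 𝒴 | (∏ σ, xf θ 𝒴 σ y ^ e σ) * ∏ σ, xf θ 𝒴 σ y' ^ e' σ =
      (∏ σ, xf θ 𝒴 σ y ^ e' σ) * ∏ σ, xf θ 𝒴 σ y' ^ e σ}.Finite

/-! ### Power series -/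

/-- `α` is the smallest exponent (degree-lexicographic order) occurring in `f`. -/
def IsLead {K : Type*} [Field K] {i : ℕ} (f : MvPowerSeries (Fin i) K) (α : Fin i →₀ ℕ) : Prop :=
  MvPowerSeries.coeff α f ≠ 0 ∧
    ∀ β : Fin i →₀ ℕ, toDegLex β < toDegLex α → MvPowerSeries.coeff β f = 0

/-- Set of leading exponents of a subspace. -/
def Val {K : Type*} [Field K] {i : ℕ} (U : Submodule K (MvPowerSeries (Fin i) K)) :
    Set (Fin i →₀ ℕ) := {α | ∃ f ∈ U, IsLead f α}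

/-- All exponents of degree `≤ m` are leading exponents. -/
def Full {K : Type*} [Field K] {i : ℕ} (U : Submodule K (MvPowerSeries (Fin i) K)) (m : ℕ) : Prop :=
  ∀ α : Fin i →₀ ℕ, α.degree ≤ m → α ∈ Val U

/-- Span of a finite family. -/
abbrev sp (K : Type*) {A : Type*} [Field K] [CommRing A] [Algebra K A] {d : ℕ} (x : Fin d → A) :
    Submodule K A := Submodule.span K (Set.range x)

/-- Generic Taylor data: units `ξ_σ` (inverses `ζ_σ`) whose span contains `1` and the variables. -/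
structure Jets {K : Type*} [Field K] {i d : ℕ} (ξ ζ : Fin d → MvPowerSeries (Fin i) K) : Prop where
  inv : ∀ σ, ξ σ * ζ σ = 1
  one : (1 : MvPowerSeries (Fin i) K) ∈ sp K ξ
  hX : ∀ j, MvPowerSeries.X j ∈ sp K ξ

/-- No multiplicative relation between the `ξ_σ`. -/
def NoBinom {K : Type*} [Field K] {i d : ℕ} (ξ : Fin d → MvPowerSeries (Fin i) K) : Prop :=
  ∀ e e' : Fin d → ℕ, e ≠ e' → ∑ σ, e σ = ∑ σ, e' σ → ∀ a : K,
    ∏ σ, ξ σ ^ e σ ≠ a • ∏ σ, ξ σ ^ e' σ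

/-- `τ_σ = (ν - θ_σ) ξ_σ^{-k}`. -/
noncomputable def tau {K : Type*} [Field K] {i d : ℕ} (k : ℕ) (θ : Fin d → K)
    (ζ : Fin d → MvPowerSeries (Fin i) K) (ν : MvPowerSeries (Fin i) K) (σ : Fin d) :
    MvPowerSeries (Fin i) K := (ν - MvPowerSeries.C (θ σ)) * ζ σ ^ k

/-- Span of the Laurent monomials `ξ^α ξ^{-β}`, `|α| = |β| = M`. -/
noncomputable def LM (K : Type*) {A : Type*} [Field K] [CommRing A] [Algebra K A] {d : ℕ}
    (ξ ζ : Fin d → A) (M : ℕ) : Submodule K A := sp K ξ ^ M * sp K ζ ^ M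

/-! ### Ultrapower -/

/-- A nonprincipal ultrafilter on `ℕ`. -/
noncomputable abbrev UF : Ultrafilter ℕ := Filter.hyperfilter ℕ

/-- The ultrapower of `ℂ`. -/
abbrev FF : Type := Filter.Germ (UF : Filter ℕ) ℂ

noncomputable example : Field FF := inferInstance

instance : CharZero FF where
  cast_injective a b h := by
    have h' : ((fun _ : ℕ => (a : ℂ) : ℕ → ℂ) : FF) = ((fun _ : ℕ => (b : ℂ) : ℕ → ℂ) : FF) := h
    have := (Filter.Germ.coe_eq.1 h').exists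
    obtain ⟨_, hh⟩ := this
    have hh' : (a : ℂ) = (b : ℂ) := hh
    exact_mod_cast hh'

/-- The constant germs. -/
noncomputable def cst (t : ℂ) : FF := ((fun _ : ℕ => t : ℕ → ℂ) : FF)

/-- Internal points of an internal set. -/
def Itl {d : ℕ} (Y : ℕ → Finset (Pt d)) : Set (ℕ → Pt d) :=
  {z | ∀ᶠ r in (UF : Filter ℕ), z r ∈ Y r}

/-- Coordinates of an internal point. -/
noncomputable def coF {d : ℕ} (c : Fin d) (z : ℕ → Pt d) : Var d → FF :=
  fun v => ((fun r => co ℂ c (z r) v : ℕ → ℂ) : FF)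

/-- The set of coordinate vectors of the internal points. -/
def PtsF {d : ℕ} (c : Fin d) (Y : ℕ → Finset (Pt d)) : Set (Var d → FF) := coF c '' Itl Y

/-- Vanishing ideal of an internal set. -/
noncomputable def IF {d : ℕ} (c : Fin d) (Y : ℕ → Finset (Pt d)) :
    Ideal (MvPolynomial (Var d) FF) := MvPolynomial.vanishingIdeal FF (PtsF c Y)

/-- `u_r ≤ H_r^{κ + o(1)}` along the ultrafilter. -/
def Le (H : ℕ → ℕ) (u : ℕ → ℝ) (κ : ℝ) : Prop :=
  ∀ ε : ℝ, 0 < ε → ∀ᶠ r in (UF : Filter ℕ), u r ≤ (H r : ℝ) ^ (κ + ε)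

/-- The data extracted from a sequence of counterexamples. -/
structure Sys {d : ℕ} (g : ℤ[X]) (θ : Fin d → ℂ) (k : ℕ) (γ : ℤ) (c : Fin d) (B : ℕ) (η : ℝ) where
  H : ℕ → ℕ
  X : ℕ → Finset (Pt d)
  x : ℕ → Pt d
  Y : Finset ℕ → ℕ → Finset (Pt d)
  q : ℕ → ℕ → ℕ
  K : ℕ → ℕ
  hH : ∀ r, r + 1 ≤ H r
  good : ∀ r, ∀ z ∈ X r, Good g k γ c (H r) z
  mi : ∀ r, MI θ B (X r)
  mem : ∀ Q r, x r ∈ Y Q r
  sub : ∀ Q r, Y Q r ⊆ X r
  anti : ∀ Q Q' r, Q ⊆ Q' → Y Q' r ⊆ Y Q r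
  hcls : ∀ Q r, ∀ i ∈ Q, ∀ z ∈ Y Q r, cls c (q r i) z = cls c (q r i) (x r)
  nice : ∀ Q r, Q ⊆ Finset.range r → Nice c (H r) r (Q.image (q r)) (Y Q r)
  card0 : ∀ r, (X r).card ≤ K r * (Y ∅ r).card
  cardS : ∀ Q r, Q ⊆ Finset.range r → ∀ i < r,
    (Y Q r).card ≤ K r * ((Y Q r).image (cls c (q r i))).card * (Y (insert i Q) r).card
  qp : ∀ r i, (q r i).Prime
  qinj : ∀ r, Function.Injective (q r)
  qlo : ∀ r i, (H r : ℝ) ^ η ≤ q r i
  qhi : ∀ r i, (q r i : ℝ) ≤ 2 ^ (i + 2) * (H r : ℝ) ^ η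
  hK : ∀ r, K r ^ r ≤ H r

end Crest.Agent.R22
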