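import Crest.Agent.R22.Defs

/-! # Row 22: Ramsey, sliding windows, heights, primes -/

set_option autoImplicit false

namespace Crest.Agent.R22

open Classical in
/-- Ultrafilter limit of a bounded sequence of naturals. -/
noncomputable def ulim (f : ℕ → ℕ) : ℕ :=
  if h : ∃ a, ∀ᶠ i in (UF : Filter ℕ), f i = a then h.choose else 0

lemma ulim_spec (m : ℕ) (f : ℕ → ℕ) (hf : ∀ i, f i ≤ m) :
    ∀ᶠ i in (UF : Filter ℕ), f i = ulim f := by
  have h : ∃ a, ∀ᶠ i in (UF : Filter ℕ), f i = a := by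
    have h1 : ∀ᶠ i in (UF : Filter ℕ), ∃ a ∈ (Set.Iic m), f i = a :=
      Filter.Eventually.of_forall fun i => ⟨f i, hf i, rfl⟩
    obtain ⟨a, -, ha⟩ := (Ultrafilter.eventually_exists_mem_iff (Set.finite_Iic m)).1 h1
    exact ⟨a, ha⟩
  unfold ulim
  rw [dif_pos h]
  exact h.choose_spec

lemma ulim_le (m : ℕ) (f : ℕ → ℕ) (hf : ∀ i, f i ≤ m) : ulim f ≤ m := by
  obtain ⟨i, hi⟩ := (ulim_spec m f hf).exists
  rw [← hi]; exact hf i

/-- Iterated limits. -/
noncomputable def ramD (h : Finset ℕ → ℕ) : ℕ → Finset ℕ → ℕ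
  | 0 => h
  | t + 1 => fun Q => ulim fun i => ramD h t (insert i Q)

lemma ramD_le (m : ℕ) (h : Finset ℕ → ℕ) (hb : ∀ Q, h Q ≤ m) : ∀ t Q, ramD h t Q ≤ m
  | 0, Q => hb Q
  | t + 1, Q => ulim_le m _ fun i => ramD_le m h hb t (insert i Q)

lemma ram_next (S m : ℕ) (h : Finset ℕ → ℕ) (hb : ∀ Q, h Q ≤ m) (B : Finset ℕ) :
    ∃ a, (∀ b ∈ B, b < a) ∧ ∀ Q ∈ B.powerset, ∀ t ∈ Finset.range S,
      ramD h t (insert a Q) = ramD h (t + 1) Q := by
  have h1 : ∀ᶠ a in (UF : Filter ℕ), ∀ b ∈ B, b < a := by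
    rw [Filter.eventually_all_finset]
    intro b _
    have : ∀ᶠ a in Filter.cofinite, b < a := by
      rw [Nat.cofinite_eq_atTop]; exact Filter.eventually_gt_atTop b
    exact this.filter_mono Filter.hyperfilter_le_cofinite
  have h2 : ∀ᶠ a in (UF : Filter ℕ), ∀ Q ∈ B.powerset, ∀ t ∈ Finset.range S,
      ramD h t (insert a Q) = ramD h (t + 1) Q := by
    rw [Filter.eventually_all_finset]
    intro Q _
    rw [Filter.eventually_all_finset]
    intro t _
    exact ulim_spec m _ fun i => ramD_le m h hb t (insert i Q)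
  exact (h1.and h2).exists

/-- Infinite Ramsey theorem for subsets of bounded size.  Recipe with `U = hyperfilter ℕ`:
define `D 0 Q = h Q`, `D (t+1) Q =` the unique value `a ≤ m` with
`∀ᶠ i in U, D t (insert i Q) = a` (`Ultrafilter.finite_biUnion_mem_iff` / `eventually_exists..`).
Build an increasing sequence `u 0 < u 1 < …` such that for every `n`, every
`Q ⊆ {u 0, …, u (n-1)}` and every `t < S`: `D t (insert (u n) Q) = D (t+1) Q` (finitely many
conditions, each in `U`).  Removing the largest element repeatedly gives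
`D t Q = D (t + Q.card) ∅` for `t + Q.card ≤ S`. -/
theorem ramsey (S m : ℕ) (h : Finset ℕ → ℕ) (hb : ∀ Q, h Q ≤ m) :
    ∃ M : Set ℕ, M.Infinite ∧ ∀ Q Q' : Finset ℕ, (Q : Set ℕ) ⊆ M → (Q' : Set ℕ) ⊆ M →
      Q.card = Q'.card → Q.card ≤ S → h Q = h Q' := by
  choose nx hnx1 hnx2 using ram_next S m h hb
  let A : ℕ → Finset ℕ := fun n => Nat.rec ∅ (fun _ B => insert (nx B) B) n
  have hA : ∀ n, A (n + 1) = insert (nx (A n)) (A n) := fun n => rfl
  let u : ℕ → ℕ := fun n => nx (A n)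
  have hmem : ∀ n j, j < n → u j ∈ A n := by
    intro n
    induction n with
    | zero => intro j hj; omega
    | succ n ih =>
      intro j hj
      rw [hA]
      rcases Nat.lt_succ_iff_lt_or_eq.1 hj with h1 | h1
      · exact Finset.mem_insert_of_mem (ih j h1)
      · subst h1; exact Finset.mem_insert_self _ _
  have hu : StrictMono u := fun j n hj => hnx1 (A n) _ (hmem n j hj)
  have key : ∀ Q : Finset ℕ, (Q : Set ℕ) ⊆ Set.range u → ∀ t, t + Q.card ≤ S →
      ramD h t Q = ramD h (t + Q.card) ∅ := by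
    intro Q
    induction Q using Finset.induction_on_max with
    | empty => intro _ t _; simp
    | insert a s hs ih =>
      intro hsub t ht
      have has : a ∉ s := fun hh => lt_irrefl _ (hs a hh)
      rw [Finset.card_insert_of_notMem has] at ht ⊢
      obtain ⟨n, hn⟩ := hsub (Finset.mem_coe.2 (Finset.mem_insert_self a s))
      have hsub' : (s : Set ℕ) ⊆ Set.range u := fun x hx =>
        hsub (Finset.mem_coe.2 (Finset.mem_insert_of_mem (Finset.mem_coe.1 hx)))
      have hsA : s ⊆ A n := by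
        intro x hx
        obtain ⟨j, hj⟩ := hsub' (Finset.mem_coe.2 hx)
        have hlt : u j < u n := by rw [hj, hn]; exact hs x hx
        rw [← hj]
        exact hmem n j (hu.lt_iff_lt.1 hlt)
      have h1 := hnx2 (A n) s (Finset.mem_powerset.2 hsA) t (Finset.mem_range.2 (by omega))
      have h2 : nx (A n) = a := hn
      rw [h2] at h1
      rw [h1, ih hsub' (t + 1) (by omega)]
      congr 1
      omega
  refine ⟨Set.range u, Set.infinite_range_of_injective hu.injective, ?_⟩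
  intro Q Q' hQ hQ' hc hS
  have h1 := key Q hQ 0 (by omega)
  have h2 := key Q' hQ' 0 (by omega)
  have h3 : ramD h 0 Q = ramD h 0 Q' := by rw [h1, h2, hc]
  exact h3

/-- Recipe: `M` from `ramsey S`; `a s` = common value on `s`-subsets (monotone, `≤ m`);
`Dr = {s < S | a s ≠ a (s+1)}` has at most `m` elements.  For `s ∉ Dr` and `Q, Q'` of size `s`
induct on `(Q \ Q').card`: swap `j ∈ Q \ Q'` for `i ∈ Q' \ Q`,
`P Q = P (insert i Q) = P ((insert i Q).erase j)`. -/
theorem sliding {α : Type*} (P : Finset ℕ → α) (h : Finset ℕ → ℕ) (m : ℕ) (hb : ∀ Q, h Q ≤ m)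
    (hmono : ∀ Q Q', Q ⊆ Q' → h Q ≤ h Q') (heq : ∀ Q Q', Q ⊆ Q' → h Q = h Q' → P Q = P Q')
    (S : ℕ) : ∃ M : Set ℕ, M.Infinite ∧ ∃ Dr : Finset ℕ, Dr.card ≤ m ∧ ∀ s < S, s ∉ Dr →
      ∀ Q Q' : Finset ℕ, (Q : Set ℕ) ⊆ M → (Q' : Set ℕ) ⊆ M → Q.card = s → Q'.card = s →
        P Q = P Q' := by
  classical
  obtain ⟨M, hM, hR⟩ := ramsey S m h hb
  let u : ℕ ↪ ℕ := (hM.natEmbedding M).trans (Function.Embedding.subtype _)
  have huM : ∀ n, u n ∈ M := fun n => (hM.natEmbedding M n).2
  let T : ℕ → Finset ℕ := fun s => (Finset.range s).map u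
  have hTM : ∀ s, (T s : Set ℕ) ⊆ M := by
    intro s x hx
    obtain ⟨n, -, rfl⟩ := Finset.mem_map.1 (Finset.mem_coe.1 hx)
    exact huM n
  have hTc : ∀ s, (T s).card = s := fun s => by simp [T]
  let a : ℕ → ℕ := fun s => h (T s)
  have ha : ∀ s, a s ≤ a (s + 1) := fun s =>
    hmono _ _ (Finset.map_subset_map.2 (Finset.range_subset_range.2 (Nat.le_succ s)))
  have hcard : ∀ n, ((Finset.range n).filter fun s => a s ≠ a (s + 1)).card ≤ a n := by
    intro n
    induction n with
    | zero => simp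
    | succ n ih =>
      rw [Finset.range_add_one, Finset.filter_insert]
      have := ha n
      split_ifs with hh
      · have := Finset.card_insert_le n ((Finset.range n).filter fun s => a s ≠ a (s + 1))
        omega
      · omega
  refine ⟨M, hM, (Finset.range S).filter fun s => a s ≠ a (s + 1), (hcard S).trans (hb _), ?_⟩
  intro s hs hDr
  have has : a s = a (s + 1) := by
    by_contra hne
    exact hDr (Finset.mem_filter.2 ⟨Finset.mem_range.2 hs, hne⟩)
  have hstep : ∀ Q R : Finset ℕ, Q ⊆ R → (R : Set ℕ) ⊆ M → Q.card = s → R.card = s + 1 →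
      P Q = P R := by
    intro Q R hQR hRM hQ hRc
    apply heq Q R hQR
    have hQM : (Q : Set ℕ) ⊆ M := fun x hx => hRM (Finset.mem_coe.2 (hQR (Finset.mem_coe.1 hx)))
    rw [hR Q (T s) hQM (hTM s) (by rw [hQ, hTc]) (by omega),
      hR R (T (s + 1)) hRM (hTM _) (by rw [hRc, hTc]) (by omega)]
    exact has
  have main : ∀ n, ∀ Q Q' : Finset ℕ, (Q \ Q').card = n → (Q : Set ℕ) ⊆ M → (Q' : Set ℕ) ⊆ M →
      Q.card = s → Q'.card = s → P Q = P Q' := by
    intro n
    induction n with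
    | zero =>
      intro Q Q' h0 _ _ hQ hQ'
      have hsub : Q ⊆ Q' := Finset.sdiff_eq_empty_iff_subset.1 (Finset.card_eq_zero.1 h0)
      rw [Finset.eq_of_subset_of_card_le hsub (by omega)]
    | succ n ih =>
      intro Q Q' h0 hQM hQM' hQ hQ'
      obtain ⟨j, hj⟩ : (Q \ Q').Nonempty := Finset.card_pos.1 (by omega)
      have hc : (Q' \ Q).card = n + 1 := by
        rw [← h0]; exact (Finset.card_sdiff_comm (by omega))
      obtain ⟨i, hi⟩ : (Q' \ Q).Nonempty := Finset.card_pos.1 (by omega)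
      obtain ⟨hjQ, hjQ'⟩ := Finset.mem_sdiff.1 hj
      obtain ⟨hiQ', hiQ⟩ := Finset.mem_sdiff.1 hi
      have hRM : ((insert i Q : Finset ℕ) : Set ℕ) ⊆ M := by
        intro x hx
        rcases Finset.mem_insert.1 (Finset.mem_coe.1 hx) with rfl | hx'
        · exact hQM' (Finset.mem_coe.2 hiQ')
        · exact hQM (Finset.mem_coe.2 hx')
      have hRc : (insert i Q).card = s + 1 := by rw [Finset.card_insert_of_notMem hiQ, hQ]
      have hEc : ((insert i Q).erase j).card = s := by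
        rw [Finset.card_erase_of_mem (Finset.mem_insert_of_mem hjQ), hRc]; rfl
      have hEM : (((insert i Q).erase j : Finset ℕ) : Set ℕ) ⊆ M := fun x hx =>
        hRM (Finset.mem_coe.2 (Finset.mem_of_mem_erase (Finset.mem_coe.1 hx)))
      rw [hstep Q (insert i Q) (Finset.subset_insert _ _) hRM hQ hRc,
        ← hstep ((insert i Q).erase j) (insert i Q) (Finset.erase_subset _ _) hRM hEc hRc]
      apply ih _ _ _ hEM hQM' hEc hQ'
      have : (insert i Q).erase j \ Q' = (Q \ Q').erase j := by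
        ext x
        simp only [Finset.mem_sdiff, Finset.mem_erase, Finset.mem_insert]
        constructor
        · rintro ⟨⟨h1, h2 | h2⟩, h3⟩
          · subst h2; exact absurd hiQ' h3
          · exact ⟨h1, h2, h3⟩
        · rintro ⟨h1, h2, h3⟩
          exact ⟨⟨h1, Or.inr h2⟩, h3⟩
      rw [this, Finset.card_erase_of_mem hj, h0]; rfl
  intro Q Q' hQM hQM' hQ hQ'
  exact main _ Q Q' rfl hQM hQM' hQ hQ'

/-- Recipe: `h I = I.height.toNat`; `MvPolynomial.ringKrullDim_of_isNoetherianRing`,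
`ringKrullDim_eq_zero_of_field`, `Ideal.height_le_ringKrullDim_of_isPrime`,
`Ideal.height_strict_mono_of_isPrime..` (see `Mathlib/RingTheory/Ideal/Height.lean`). -/
theorem exists_height (F : Type*) [Field F] (V : Type*) [Fintype V] :
    ∃ h : Ideal (MvPolynomial V F) → ℕ, (∀ I, I.IsPrime → h I ≤ Fintype.card V) ∧
      ∀ I J, I.IsPrime → J.IsPrime → I < J → h I < h J := by
  have hle : ∀ I : Ideal (MvPolynomial V F), I.IsPrime →
      I.height ≤ (Fintype.card V : ℕ∞) := by
    intro I hI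
    have h1 := Ideal.height_le_ringKrullDim_of_isPrime (I := I)
    rw [MvPolynomial.ringKrullDim_of_isNoetherianRing, ringKrullDim_eq_zero_of_field, zero_add,
      Nat.card_eq_fintype_card] at h1
    exact_mod_cast h1
  refine ⟨fun I => I.height.toNat, fun I hI => ?_, fun I J hI hJ hIJ => ?_⟩
  · exact ENat.toNat_le_of_le_natCast (hle I hI)
  · have h1 := Ideal.height_add_one_le_of_lt_of_isPrime hIJ
    have hI' : I.height ≠ ⊤ := ne_top_of_le_ne_top (ENat.natCast_ne_top _) (hle I hI)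
    have hJ' : J.height ≠ ⊤ := ne_top_of_le_ne_top (ENat.natCast_ne_top _) (hle J hJ)
    obtain ⟨a, ha⟩ := ENat.ne_top_iff_exists.1 hI'
    obtain ⟨b, hb⟩ := ENat.ne_top_iff_exists.1 hJ'
    show I.height.toNat < J.height.toNat
    rw [← ha, ← hb] at h1 ⊢
    simp only [ENat.toNat_natCast]
    have : a + 1 ≤ b := by exact_mod_cast h1
    omega

/-- Bertrand: a prime in `(2^i Z, 2^(i+1) Z]`. -/
theorem exists_primes (Z : ℕ) (hZ : 1 ≤ Z) : ∃ q : ℕ → ℕ, Function.Injective q ∧
    ∀ i, (q i).Prime ∧ Z ≤ q i ∧ q i ≤ 2 ^ (i + 1) * Z := by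
  have h : ∀ i : ℕ, ∃ p, Nat.Prime p ∧ 2 ^ i * Z < p ∧ p ≤ 2 * (2 ^ i * Z) := fun i =>
    Nat.exists_prime_lt_and_le_two_mul _ (by positivity)
  choose q hq1 hq2 hq3 using h
  refine ⟨q, ?_, fun i => ⟨hq1 i, ?_, ?_⟩⟩
  · apply StrictMono.injective
    apply strictMono_nat_of_lt_succ
    intro i
    have h1 := hq3 i
    have h2 := hq2 (i + 1)
    rw [pow_succ] at h2
    nlinarith
  · have h1 := hq2 i
    have h2 : 1 ≤ 2 ^ i := Nat.one_le_two_pow
    nlinarith
  · have h1 := hq3 i
    rw [pow_succ]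
    nlinarith

/-- Recipe: for `s ∉ Dr`, `i s ≤ k * 1[η s ≤ 1/(k+1)] + 1[η s ≤ lam]`, and
`#{s | η s ≤ a} ≤ a / η + 1` for `a ≥ 0`. -/
theorem sum_dims_le (k m s₀ : ℕ) (η lam : ℝ) (hη : 0 < η) (hlam : 0 ≤ lam) (i : ℕ → ℕ)
    (Dr : Finset ℕ) (hDr : Dr.card ≤ m) (hi : ∀ s, i s ≤ k + 1)
    (h1 : ∀ s < s₀, s ∉ Dr → 1 ≤ i s → η * s ≤ 1 / ((k : ℝ) + 1))
    (h2 : ∀ s < s₀, s ∉ Dr → i s = k + 1 → η * s ≤ lam) :
    η * ∑ s ∈ Finset.range s₀, (i s : ℝ) ≤ lam + k / ((k : ℝ) + 1) + η * (k + 1) * (m + 1) := by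
  classical
  have hcnt : ∀ a : ℝ, 0 ≤ a →
      η * (((Finset.range s₀).filter fun s : ℕ => η * s ≤ a).card : ℝ) ≤ a + η := by
    intro a ha
    have h1 : ((Finset.range s₀).filter fun s : ℕ => η * s ≤ a) ⊆
        Finset.range (⌊a / η⌋₊ + 1) := by
      intro s hs
      have h2 := (Finset.mem_filter.1 hs).2
      rw [Finset.mem_range, Nat.lt_succ_iff]
      apply Nat.le_floor
      rw [le_div_iff₀ hη]; linarith
    have h2 := Finset.card_le_card h1
    rw [Finset.card_range] at h2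
    have h3 : (((Finset.range s₀).filter fun s : ℕ => η * s ≤ a).card : ℝ) ≤ a / η + 1 := by
      have h4 : (⌊a / η⌋₊ : ℝ) ≤ a / η := Nat.floor_le (div_nonneg ha hη.le)
      have h5 : (((Finset.range s₀).filter fun s : ℕ => η * s ≤ a).card : ℝ) ≤ ⌊a / η⌋₊ + 1 := by
        exact_mod_cast h2
      linarith
    calc _ ≤ η * (a / η + 1) := mul_le_mul_of_nonneg_left h3 hη.le
      _ = a + η := by field_simp
  have hpt : ∀ s ∈ Finset.range s₀, (i s : ℝ) ≤
      ((k : ℝ) + 1) * (if s ∈ Dr then 1 else 0) +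
      (k : ℝ) * (if η * s ≤ 1 / ((k : ℝ) + 1) then 1 else 0) + (if η * s ≤ lam then 1 else 0) := by
    intro s hs
    have hs' := Finset.mem_range.1 hs
    have hk : (0 : ℝ) ≤ k := Nat.cast_nonneg k
    have his : (i s : ℝ) ≤ k + 1 := by exact_mod_cast hi s
    by_cases hD : s ∈ Dr
    · rw [if_pos hD]
      split_ifs <;> linarith
    · rw [if_neg hD]
      by_cases h0 : i s = 0
      · rw [h0]; split_ifs <;> simp <;> linarith
      · rw [if_pos (h1 s hs' hD (by omega))]
        by_cases h3 : i s = k + 1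
        · rw [if_pos (h2 s hs' hD h3)]; linarith
        · have h4 : i s ≤ k := by have := hi s; omega
          have h5 : (i s : ℝ) ≤ k := by exact_mod_cast h4
          split_ifs <;> linarith
  have hsum := Finset.sum_le_sum hpt
  rw [Finset.sum_add_distrib, Finset.sum_add_distrib, ← Finset.mul_sum, ← Finset.mul_sum,
    Finset.sum_boole, Finset.sum_boole, Finset.sum_boole] at hsum
  have hk : (0 : ℝ) ≤ k := Nat.cast_nonneg k
  have hD : (((Finset.range s₀).filter fun s => s ∈ Dr).card : ℝ) ≤ m := by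
    have : ((Finset.range s₀).filter fun s => s ∈ Dr).card ≤ m :=
      (Finset.card_le_card fun s hs => (Finset.mem_filter.1 hs).2).trans hDr
    exact_mod_cast this
  have hA := hcnt (1 / ((k : ℝ) + 1)) (by positivity)
  have hB := hcnt lam hlam
  have hC := mul_le_mul_of_nonneg_left hsum hη.le
  have hA' := mul_le_mul_of_nonneg_left hA hk
  have hD' := mul_le_mul_of_nonneg_left hD (show 0 ≤ η * ((k : ℝ) + 1) by positivity)
  have hE : (k : ℝ) * (1 / ((k : ℝ) + 1)) = k / ((k : ℝ) + 1) := by ring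
  nlinarith

/-- A maximal independent set of `s`-variables. -/
theorem exists_maxJ {d : ℕ} {F : Type*} [Field F] (I : Ideal (MvPolynomial (Var d) F))
    (hI : I ≠ ⊤) : ∃ J : Finset (Fin d), ¬ DepI I (sv J) ∧ J.card = dimS I ∧
      ∀ J' : Finset (Fin d), J'.card = dimS I + 1 → DepI I (sv J') := by
  classical
  have h0 : ¬ DepI I (sv (∅ : Finset (Fin d))) := by
    rintro ⟨P, hP, hne, hv⟩
    apply hI
    have hv' : P.vars = ∅ := by
      simpa [sv] using hv
    have hc : P = MvPolynomial.C (P.coeff 0) := by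
      apply MvPolynomial.totalDegree_eq_zero_iff_eq_C.1
      rw [MvPolynomial.totalDegree_eq_zero_iff]
      intro m hm x
      by_contra hx
      have : x ∈ P.vars := (MvPolynomial.mem_vars_iff_mem_support x).2 ⟨m, hm, Finsupp.mem_support_iff.2 hx⟩
      rw [hv'] at this
      exact absurd this (Finset.notMem_empty x)
    have hc0 : P.coeff 0 ≠ 0 := by
      intro h; apply hne; rw [hc, h]; simp
    apply Ideal.eq_top_of_isUnit_mem I hP
    rw [hc]
    exact (IsUnit.mk0 _ hc0).map MvPolynomial.C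
  have hne : (Finset.univ.filter fun J : Finset (Fin d) => ¬ DepI I (sv J)).Nonempty :=
    ⟨∅, Finset.mem_filter.2 ⟨Finset.mem_univ _, h0⟩⟩
  obtain ⟨J, hJ, hJ'⟩ := Finset.exists_mem_eq_sup _ hne Finset.card
  refine ⟨J, (Finset.mem_filter.1 hJ).2, hJ'.symm, ?_⟩
  intro J' hc
  by_contra hd
  have : J'.card ≤ dimS I :=
    Finset.le_sup (f := Finset.card) (Finset.mem_filter.2 ⟨Finset.mem_univ J', hd⟩)
  omega

/-- If `s_c - 1 ∈ I`, an independent set avoids `c`. -/
theorem dimS_succ_le {d : ℕ} {F : Type*} [Field F] (I : Ideal (MvPolynomial (Var d) F))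
    (c : Fin d) (hc : MvPolynomial.X (some c) - 1 ∈ I) : dimS I + 1 ≤ d := by
  classical
  have hd : 0 < d := Fin.pos c
  have : dimS I ≤ d - 1 := by
    apply Finset.sup_le
    intro J hJ
    have hJ' := (Finset.mem_filter.1 hJ).2
    have hcJ : c ∉ J := by
      intro hcJ
      apply hJ'
      refine ⟨_, hc, ?_, ?_⟩
      · intro h0
        have := congrArg (MvPolynomial.eval fun _ => (0 : F)) h0
        simp at this
      · intro x hx
        have h1 := MvPolynomial.vars_sub_subset (p := MvPolynomial.X (some c))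
          (q := (1 : MvPolynomial (Var d) F)) hx
        rw [MvPolynomial.vars_one, Finset.union_empty, MvPolynomial.vars_X,
          Finset.mem_singleton] at h1
        rw [h1]
        exact Finset.mem_map.2 ⟨c, hcJ, rfl⟩
    have h2 : J ⊆ Finset.univ.erase c := fun x hx =>
      Finset.mem_erase.2 ⟨fun h => hcJ (h ▸ hx), Finset.mem_univ x⟩
    have h3 := Finset.card_le_card h2
    rw [Finset.card_erase_of_mem (Finset.mem_univ c), Finset.card_univ, Fintype.card_fin] at h3
    exact h3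
  omega

end Crest.Agent.R22
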